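import Mathlib
import Vale.Agent.Results.P038.DenseCase
import Vale.Agent.Results.P038.VertexTransitive

namespace Vale.Agent.Results.P038.AAllResults

universe u

/-- Two classes of oriented graphs for which the second neighbourhood conjecture holds:
large minimum out-degree (`n ≤ 2 δ + 2`) and vertex-transitive oriented graphs. -/
theorem result :
    (∀ (V : Type u) [Finite V] [Nonempty V] (adj : V → V → Prop),
      (∀ u v, adj u v → ¬ adj v u) → ∀ δ : ℕ,
      (∀ v, δ ≤ {u | adj v u}.ncard) → Nat.card V ≤ 2 * δ + 2 →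
      ∃ v, {u | adj v u}.ncard ≤ {w | w ≠ v ∧ ¬ adj v w ∧ ∃ u, adj v u ∧ adj u w}.ncard)
    ∧
    (∀ (V : Type u) [Finite V] (adj : V → V → Prop),
      (∀ u v, adj u v → ¬ adj v u) →
      (∀ x y : V, ∃ f : Equiv.Perm V, (∀ a b, adj (f a) (f b) ↔ adj a b) ∧ f x = y) →
      ∀ v : V,
      {u | adj v u}.ncard ≤ {w | w ≠ v ∧ ¬ adj v w ∧ ∃ u, adj v u ∧ adj u w}.ncard) :=
  ⟨fun _ _ _ adj horient δ hδ hn => DenseCase.result adj horient δ hδ hn,
   fun _ _ adj horient htrans v => VertexTransitive.result adj horient htrans v⟩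

end Vale.Agent.Results.P038.AAllResults
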